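import Vale.Agent.P235.XC.Defs
import Vale.Agent.P235.H452.Geo

/-! # P235, line XC, block [X4] `SepStmt` (helper456): three positions do not separate the block
`l` from all four roots of the block `k` -/

namespace Vale.Agent.P235.XC.H456S

open SimpleGraph Vale.Agent.P235.H134 Vale.Agent.P235.H56
open Vale.Agent.P235.H452 (Rch hor ver adj_hor adj_ver)

/-- three points do not meet four disjoint sets -/
theorem pick4 {α : Type} [Finite α] (T : Set α) (hT : T.ncard ≤ 3) (g : Fin 4 → α → Prop)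
    (hg : ∀ x ∈ T, ∀ i j, g i x → g j x → i = j) : ∃ i, ∀ x ∈ T, ¬ g i x := by
  by_contra hcon
  push Not at hcon
  choose x hx hgx using hcon
  have hinj : Function.Injective x := fun i j h => hg (x i) (hx i) i j (hgx i) (h ▸ hgx j)
  have h1 : (x '' Set.univ).ncard = 4 := by
    rw [Set.ncard_image_of_injective _ hinj, Set.ncard_univ, Nat.card_eq_fintype_card,
      Fintype.card_fin]
  have h2 : (x '' Set.univ).ncard ≤ T.ncard := by
    refine Set.ncard_le_ncard ?_ (Set.toFinite T)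
    rintro _ ⟨i, -, rfl⟩
    exact hx i
  omega

section
variable {n : ℕ}

/-- one of four consecutive rows or columns is free -/
theorem pick (T : Set (Fin n × Fin n)) (hT : T.ncard ≤ 3) (f : Fin n × Fin n → Fin n) (a : ℕ)
    (ha : a + 4 ≤ n) : ∃ c : Fin n, a ≤ c.val ∧ c.val < a + 4 ∧ ∀ x ∈ T, f x ≠ c := by
  obtain ⟨i, hi⟩ := pick4 T hT (fun i x => (f x).val = a + i.val)
    (fun x _ i j h1 h2 => Fin.ext (by omega))
  have h4 := i.isLt
  refine ⟨⟨a + i.val, by omega⟩, by simp, by simp only; omega, fun x hx h => hi x hx ?_⟩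
  rw [h]

end

theorem bs_le (r : ℕ) (k : Fin 64) : bs r k.val + (r + 6) + 5 ≤ RX r := by
  have h2 : (k.val + 1) * (r + 6) ≤ 64 * (r + 6) := Nat.mul_le_mul_right _ k.isLt
  have h3 : (k.val + 1) * (r + 6) = k.val * (r + 6) + (r + 6) := by ring
  unfold RX bs; omega

theorem sep : SepStmt := by
  intro r hr k l hkl T hT hTl
  classical
  have hk0 : 5 ≤ bs r k.val := by unfold bs; omega
  have hl0 : 5 ≤ bs r l.val := by unfold bs; omega
  have hkn := bs_le r k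
  have hln := bs_le r l
  have hsep : bs r k.val + (r + 6) ≤ bs r l.val ∨ bs r l.val + (r + 6) ≤ bs r k.val := by
    have hne : k.val ≠ l.val := fun h => hkl (Fin.ext h)
    rcases lt_or_gt_of_ne hne with h | h
    · left
      have : (k.val + 1) * (r + 6) ≤ l.val * (r + 6) := Nat.mul_le_mul_right _ h
      have h3 : (k.val + 1) * (r + 6) = k.val * (r + 6) + (r + 6) := by ring
      unfold bs; omega
    · right
      have : (l.val + 1) * (r + 6) ≤ k.val * (r + 6) := Nat.mul_le_mul_right _ h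
      have h3 : (l.val + 1) * (r + 6) = l.val * (r + 6) + (r + 6) := by ring
      unfold bs; omega
  -- clear rows and columns
  let cr : Fin (RX r) → Prop := fun ρ =>
    (∀ x ∈ T, x.1 ≠ ρ) ∧ (ρ.val < bs r k.val ∨ bs r k.val + (r + 2) ≤ ρ.val)
  let cc : Fin (RX r) → Prop := fun c =>
    (∀ x ∈ T, x.2 ≠ c) ∧ (c.val < bs r k.val ∨ bs r k.val + (r + 2) ≤ c.val)
  let Z0 : Set (Pos r) := {x | cr x.1 ∨ cc x.2}
  obtain ⟨ρ0, hρ0, hρ0', hρT⟩ := pick T hT Prod.fst 0 (by omega)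
  obtain ⟨c0, hc0, hc0', hcT⟩ := pick T hT Prod.snd 0 (by omega)
  have hρ : cr ρ0 := ⟨hρT, Or.inl (by omega)⟩
  have hc : cc c0 := ⟨hcT, Or.inl (by omega)⟩
  obtain ⟨ρ1, hρ1, hρ1', hρ1T⟩ := pick T hT Prod.fst (RX r - 4) (by omega)
  have hρe : cr ρ1 := ⟨hρ1T, Or.inr (by omega)⟩
  obtain ⟨c1, hc1, hc1', hc1T⟩ := pick T hT Prod.snd (RX r - 4) (by omega)
  have hce : cc c1 := ⟨hc1T, Or.inr (by omega)⟩
  have hZT : Disjoint Z0 T := by
    rw [Set.disjoint_left]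
    rintro x (h | h) hx
    · exact h.1 x hx rfl
    · exact h.1 x hx rfl
  have hZk : Disjoint Z0 (blkX r k) := by
    rw [Set.disjoint_left]
    rintro x (h | h) ⟨h1, h2, h3, h4⟩
    · have := h.2
      omega
    · have := h.2
      omega
  -- everything reaches the base point
  have base : ∀ Z : Set (Pos r), Z0 ⊆ Z → ∀ x : Pos r, cr x.1 ∨ cc x.2 → Rch Z x (ρ0, c0) := by
    rintro Z hZ ⟨a, b⟩ (h | h)
    · refine (hor Z a 0 (RX r) (fun t _ _ => hZ (Or.inl h)) b c0 (Nat.zero_le _) b.isLt.le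
        (Nat.zero_le _) c0.isLt.le).trans ?_
      exact ver Z c0 0 (RX r) (fun t _ _ => hZ (Or.inr hc)) a ρ0 (Nat.zero_le _) a.isLt.le
        (Nat.zero_le _) ρ0.isLt.le
    · refine (ver Z b 0 (RX r) (fun t _ _ => hZ (Or.inr h)) a ρ0 (Nat.zero_le _) a.isLt.le
        (Nat.zero_le _) ρ0.isLt.le).trans ?_
      exact hor Z ρ0 0 (RX r) (fun t _ _ => hZ (Or.inl hρ)) b c0 (Nat.zero_le _) b.isLt.le
        (Nat.zero_le _) c0.isLt.le
  -- a free row of the block `l`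
  obtain ⟨ρl, hρl, hρl', hρlT⟩ := pick T hT Prod.fst (bs r l.val) (by omega)
  have hρlc : cr ρl := ⟨hρlT, by omega⟩
  -- the free line
  obtain ⟨i, hi⟩ := pick4 T hT (fun i x => x ∈ linX r k i) (by
    intro x hx i j h1 h2
    rcases h1 with ⟨hi, h1, h1'⟩ | ⟨hi, h1, h1'⟩ | ⟨hi, h1, h1'⟩ | ⟨hi, h1, h1'⟩ <;>
    rcases h2 with ⟨hj, h2, h2'⟩ | ⟨hj, h2, h2'⟩ | ⟨hj, h2, h2'⟩ | ⟨hj, h2, h2'⟩ <;>
    first
      | exact hi.trans hj.symm
      | (exfalso; omega))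
  have hlT : Disjoint (linX r k i) T := by
    rw [Set.disjoint_left]
    exact fun x h hx => hi x hx h
  have hlk2 : Disjoint (linX r k i) (blkX r k) := by
    rw [Set.disjoint_left]
    rintro x h ⟨h1, h2, h3, h4⟩
    rcases h with ⟨-, h, h'⟩ | ⟨-, h, h'⟩ | ⟨-, h, h'⟩ | ⟨-, h, h'⟩ <;> omega
  have hrootin : ∀ x, rootX r k i x → x ∈ linX r k i := by
    rintro x (⟨hi0, h, h'⟩ | ⟨hi0, h, h'⟩ | ⟨hi0, h, h'⟩ | ⟨hi0, h, h'⟩)
    · exact Or.inl ⟨hi0, h, h'.ge⟩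
    · exact Or.inr (Or.inl ⟨hi0, h.ge, h'⟩)
    · exact Or.inr (Or.inr (Or.inl ⟨hi0, h, by omega⟩))
    · exact Or.inr (Or.inr (Or.inr ⟨hi0, by omega, h'⟩))
  have hrootex : ∃ x, rootX r k i x := by
    have hcases : i = 0 ∨ i = 1 ∨ i = 2 ∨ i = 3 := by
      fin_cases i <;> simp
    rcases hcases with h | h | h | h
    · exact ⟨(⟨bs r k.val + 1, by omega⟩, ⟨bs r k.val + (r + 2), by omega⟩),
        Or.inl ⟨h, rfl, rfl⟩⟩
    · exact ⟨(⟨bs r k.val + (r + 2), by omega⟩, ⟨bs r k.val + 1, by omega⟩),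
        Or.inr (Or.inl ⟨h, rfl, rfl⟩)⟩
    · exact ⟨(⟨bs r k.val + 1, by omega⟩, ⟨bs r k.val - 1, by omega⟩),
        Or.inr (Or.inr (Or.inl ⟨h, rfl, by simp only; omega⟩))⟩
    · exact ⟨(⟨bs r k.val - 1, by omega⟩, ⟨bs r k.val + 1, by omega⟩),
        Or.inr (Or.inr (Or.inr ⟨h, by simp only; omega, rfl⟩))⟩
  have hline : ∀ Z : Set (Pos r), Z0 ⊆ Z → linX r k i ⊆ Z → ∀ x ∈ linX r k i,
      Rch Z x (ρ0, c0) := by
    rintro Z hZ hPZ ⟨a, b⟩ (⟨hi0, h, h'⟩ | ⟨hi0, h', h⟩ | ⟨hi0, h, h'⟩ | ⟨hi0, h', h⟩)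
    · simp only at h h'
      refine (hor Z a (bs r k.val + (r + 2)) (RX r) (fun t ht _ => hPZ (Or.inl ⟨hi0, h, ht⟩)) b c1
        h' b.isLt.le (by omega) c1.isLt.le).trans (base Z hZ _ (Or.inr hce))
    · simp only at h h'
      refine (ver Z b (bs r k.val + (r + 2)) (RX r)
        (fun t ht _ => hPZ (Or.inr (Or.inl ⟨hi0, ht, h⟩)))
        a ρ1 h' a.isLt.le (by omega) ρ1.isLt.le).trans (base Z hZ _ (Or.inl hρe))
    · simp only at h h'
      refine (hor Z a 0 (bs r k.val - 1) (fun t _ ht => hPZ (Or.inr (Or.inr (Or.inl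
        ⟨hi0, h, ?_⟩)))) b c0 (Nat.zero_le _) (by omega) (Nat.zero_le _) (by omega)).trans
        (base Z hZ _ (Or.inr hc))
      simp only
      omega
    · simp only at h h'
      refine (ver Z b 0 (bs r k.val - 1) (fun t _ ht => hPZ (Or.inr (Or.inr (Or.inr
        ⟨hi0, ?_, h⟩)))) a ρ0 (Nat.zero_le _) (by omega) (Nat.zero_le _) (by omega)).trans
        (base Z hZ _ (Or.inl hρ))
      simp only
      omega
  refine ⟨i, Z0 ∪ linX r k i, ?_, fun x hx => Or.inr (hrootin x hx), hrootex, ?_, ?_, ?_⟩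
  · have hb : (ρ0, c0) ∈ Z0 ∪ linX r k i := Or.inl (Or.inl hρ)
    have hall : ∀ x ∈ Z0 ∪ linX r k i, Rch (Z0 ∪ linX r k i) x (ρ0, c0) := by
      rintro x (h | h)
      · exact base _ (fun y hy => Or.inl hy) x h
      · exact hline _ (fun y hy => Or.inl hy) (fun y hy => Or.inr hy) x h
    have : Nonempty (Z0 ∪ linX r k i : Set (Pos r)) := ⟨⟨_, hb⟩⟩
    refine Connected.mk fun x y => ?_
    obtain ⟨_, _, h1⟩ := hall x.1 x.2
    obtain ⟨_, _, h2⟩ := hall y.1 y.2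
    exact h1.trans h2.symm
  · refine ⟨(ρl, ⟨bs r l.val, by omega⟩), Or.inl (Or.inl hρlc), hρl, ?_, le_rfl, ?_⟩
    · simp only
      omega
    · simp only
      omega
  · rw [Set.disjoint_union_left]
    exact ⟨hZk, hlk2⟩
  · rw [Set.disjoint_union_left]
    exact ⟨hZT, hlT⟩

end Vale.Agent.P235.XC.H456S
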